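import Mathlib

namespace Vale.Agent.Lib.P031

/-- `V x` is the number of distinct values `v ≤ x` of Euler's totient function. -/
noncomputable def V (x : ℝ) : ℕ :=
  {v : ℕ | (v : ℝ) ≤ x ∧ ∃ n : ℕ, 0 < n ∧ Nat.totient n = v}.ncard

end Vale.Agent.Lib.P031
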