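import Mathlib
import Vale.Agent.Lib.P031.Defs

namespace Vale.Agent.Lib.P031

open Filter Topology Real

/-- the set counted by `V` -/
def VS (x : ℝ) : Set ℕ := {v : ℕ | (v : ℝ) ≤ x ∧ ∃ n : ℕ, 0 < n ∧ Nat.totient n = v}

lemma V_eq (x : ℝ) : V x = (VS x).ncard := rfl

lemma VS_subset (x : ℝ) : VS x ⊆ ↑(Finset.Icc 1 ⌊x⌋₊) := by
  rintro v ⟨hv, n, hn, rfl⟩
  simp only [Finset.coe_Icc, Set.mem_Icc]
  exact ⟨Nat.totient_pos.2 hn, Nat.le_floor hv⟩

lemma VS_finite (x : ℝ) : (VS x).Finite := (Finset.finite_toSet _).subset (VS_subset x)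

lemma V_mono : Monotone V := by
  intro x y hxy
  apply Set.ncard_le_ncard _ (VS_finite y)
  rintro v ⟨hv, h⟩
  exact ⟨hv.trans hxy, h⟩

lemma V_le (x : ℝ) (hx : 0 ≤ x) : (V x : ℝ) ≤ x := by
  have h1 : V x ≤ ⌊x⌋₊ := by
    have := Set.ncard_le_ncard (VS_subset x) (Finset.finite_toSet _)
    rw [Set.ncard_coe_finset, Nat.card_Icc] at this
    simpa [V_eq] using this
  calc (V x : ℝ) ≤ (⌊x⌋₊ : ℝ) := by exact_mod_cast h1
    _ ≤ x := Nat.floor_le hx

lemma one_le_V (x : ℝ) (hx : 1 ≤ x) : 1 ≤ V x := by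
  rw [V_eq, Nat.one_le_iff_ne_zero, Ne, Set.ncard_eq_zero (VS_finite x)]
  intro h
  have : (1 : ℕ) ∈ VS x := ⟨by simpa using hx, 1, one_pos, by simp⟩
  rw [h] at this
  exact this

lemma primeCounting_le_V (x : ℝ) : Nat.primeCounting ⌊x⌋₊ ≤ V x := by
  classical
  rw [Nat.primeCounting, Nat.primeCounting', Nat.count_eq_card_filter_range, V_eq]
  rw [← Set.ncard_coe_finset]
  apply Set.ncard_le_ncard_of_injOn (fun p => p - 1) _ _ (VS_finite x)
  · intro p hp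
    simp only [Finset.coe_filter, Finset.mem_range, Set.mem_ofPred_eq] at hp
    obtain ⟨hp1, hp2⟩ := hp
    refine ⟨?_, p, hp2.pos, Nat.totient_prime hp2⟩
    have h1 : p ≤ ⌊x⌋₊ := by omega
    have h0 : 0 < ⌊x⌋₊ := lt_of_lt_of_le hp2.pos h1
    have hx : 0 ≤ x := by
      by_contra hneg
      rw [Nat.floor_of_nonpos (by linarith)] at h0
      exact lt_irrefl _ h0
    have h2 : ((p - 1 : ℕ) : ℝ) ≤ (⌊x⌋₊ : ℝ) := by exact_mod_cast (by omega)
    exact h2.trans (Nat.floor_le hx)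
  · intro p hp q hq h
    simp only [Finset.coe_filter, Finset.mem_range, Set.mem_ofPred_eq] at hp hq
    have := hp.2.pos
    have := hq.2.pos
    simp only at h
    omega

end Vale.Agent.Lib.P031
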