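import Mathlib
import Vale.Agent.Lib.P031.Basic

namespace Vale.Agent.Lib.P031

open Filter Topology Real

lemma pi_lower (y : ℝ) (hy : 7 ≤ y) : y / 4 ≤ (Nat.primeCounting ⌊y⌋₊ : ℝ) * log y := by
  have h1 : (1 : ℝ) < y := by linarith
  have h2 := Chebyshev.pi_ge' h1
  rw [div_le_iff₀ (log_pos h1)] at h2
  refine le_trans ?_ h2
  have h3 : log (y + 2) = log 8 + log ((y + 2) / 8) := by
    rw [← Real.log_mul (by norm_num) (by positivity)]
    congr 1
    ring
  have h4 : log ((y + 2) / 8) ≤ (y + 2) / 8 - 1 := Real.log_le_sub_one_of_pos (by positivity)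
  have h5 : log 8 = 3 * log 2 := by
    rw [show (8 : ℝ) = 2 ^ 3 by norm_num, Real.log_pow]
    norm_num
  have h6 := Real.log_two_gt_d9
  have h7 : (y - 4) * 0.69 ≤ (y - 4) * log 2 := by
    apply mul_le_mul_of_nonneg_left _ (by linarith)
    linarith
  nlinarith

/-- the ratio `V(cx)/V(x)` -/
noncomputable def R (c x : ℝ) : ℝ := (V (c * x) : ℝ) / (V x : ℝ)

lemma V_pos (x : ℝ) (hx : 1 ≤ x) : (0 : ℝ) < V x := by
  exact_mod_cast one_le_V x hx

lemma freq_lt (c : ℝ) (hc : 1 < c) (ε : ℝ) (hε : 0 < ε) : ∃ᶠ x in atTop, R c x < c + ε := by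
  intro hcon
  simp only [not_lt] at hcon
  obtain ⟨x₁, hx₁⟩ := eventually_atTop.1 hcon
  set x₀ := max x₁ 1 with hx₀
  have hx₀1 : 1 ≤ x₀ := le_max_right _ _
  have hc0 : 0 < c := by linarith
  have hy : ∀ k : ℕ, x₀ ≤ c ^ k * x₀ := by
    intro k
    have : 1 ≤ c ^ k := one_le_pow₀ hc.le
    nlinarith
  have key : ∀ k : ℕ, (c + ε) ^ k ≤ (V (c ^ k * x₀) : ℝ) := by
    intro k
    induction k with
    | zero =>
      simp only [pow_zero, one_mul]
      exact_mod_cast one_le_V x₀ hx₀1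
    | succ k ih =>
      have h1 := hx₁ (c ^ k * x₀) ((le_max_left _ _).trans (hy k))
      rw [R, le_div_iff₀ (V_pos _ (hx₀1.trans (hy k)))] at h1
      calc (c + ε) ^ (k + 1) = (c + ε) * (c + ε) ^ k := by ring
        _ ≤ (c + ε) * (V (c ^ k * x₀) : ℝ) := by
          apply mul_le_mul_of_nonneg_left ih (by linarith)
        _ ≤ (V (c * (c ^ k * x₀)) : ℝ) := h1
        _ = (V (c ^ (k + 1) * x₀) : ℝ) := by
          congr 2
          ring
  have h2 : ∀ k : ℕ, ((c + ε) / c) ^ k ≤ x₀ := by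
    intro k
    have h3 := (key k).trans (V_le _ (by positivity))
    rw [div_pow, div_le_iff₀ (by positivity)]
    linarith
  have h4 : Tendsto (fun k : ℕ => ((c + ε) / c) ^ k) atTop atTop :=
    tendsto_pow_atTop_atTop_of_one_lt (by rw [lt_div_iff₀ hc0]; linarith)
  obtain ⟨k, hk⟩ := (h4.eventually (eventually_gt_atTop x₀)).exists
  exact absurd (h2 k) (not_le.2 hk)

lemma one_le_R (c : ℝ) (hc : 1 ≤ c) (x : ℝ) (hx : 1 ≤ x) : 1 ≤ R c x := by
  rw [R, le_div_iff₀ (V_pos x hx), one_mul]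
  exact_mod_cast V_mono (by nlinarith)

lemma freq_gt (c : ℝ) (hc : 1 < c) (ε : ℝ) (hε : 0 < ε) : ∃ᶠ x in atTop, c - ε < R c x := by
  intro hcon
  simp only [not_lt] at hcon
  obtain ⟨x₁, hx₁⟩ := eventually_atTop.1 hcon
  set x₀ := max x₁ 7 with hx₀
  have hx₀7 : 7 ≤ x₀ := le_max_right _ _
  have hx₀1 : 1 ≤ x₀ := by linarith
  have hc0 : 0 < c := by linarith
  have hy : ∀ k : ℕ, x₀ ≤ c ^ k * x₀ := by
    intro k
    have : 1 ≤ c ^ k := one_le_pow₀ hc.le
    nlinarith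
  have hce : 1 ≤ c - ε := (one_le_R c hc.le x₀ hx₀1).trans (hx₁ x₀ (le_max_left _ _))
  have key : ∀ k : ℕ, (V (c ^ k * x₀) : ℝ) ≤ (c - ε) ^ k * x₀ := by
    intro k
    induction k with
    | zero =>
      simp only [pow_zero, one_mul]
      exact V_le x₀ (by linarith)
    | succ k ih =>
      have h1 := hx₁ (c ^ k * x₀) ((le_max_left _ _).trans (hy k))
      rw [R, div_le_iff₀ (V_pos _ (hx₀1.trans (hy k)))] at h1
      calc (V (c ^ (k + 1) * x₀) : ℝ) = (V (c * (c ^ k * x₀)) : ℝ) := by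
            congr 2
            ring
        _ ≤ (c - ε) * (V (c ^ k * x₀) : ℝ) := h1
        _ ≤ (c - ε) * ((c - ε) ^ k * x₀) := by
          apply mul_le_mul_of_nonneg_left ih (by linarith)
        _ = (c - ε) ^ (k + 1) * x₀ := by ring
  set r := (c - ε) / c with hr
  have hr0 : 0 < r := by positivity
  have hr1 : r < 1 := by
    rw [hr, div_lt_one hc0]
    linarith
  have h2 : ∀ k : ℕ, 1 ≤ 4 * (r ^ k * (k * log c + log x₀)) := by
    intro k
    have hyk : 7 ≤ c ^ k * x₀ := hx₀7.trans (hy k)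
    have h3 := pi_lower _ hyk
    have h4 : (Nat.primeCounting ⌊c ^ k * x₀⌋₊ : ℝ) ≤ (c - ε) ^ k * x₀ :=
      le_trans (by exact_mod_cast primeCounting_le_V _) (key k)
    have hlog : log (c ^ k * x₀) = k * log c + log x₀ := by
      rw [Real.log_mul (by positivity) (by positivity), Real.log_pow]
    have hlogpos : 0 ≤ log (c ^ k * x₀) := Real.log_nonneg (by linarith)
    have h5 : c ^ k * x₀ / 4 ≤ (c - ε) ^ k * x₀ * log (c ^ k * x₀) :=
      h3.trans (mul_le_mul_of_nonneg_right h4 hlogpos)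
    rw [hlog] at h5
    have h6 : (c - ε) ^ k = r ^ k * c ^ k := by
      rw [hr, div_pow, div_mul_cancel₀ _ (by positivity)]
    rw [h6] at h5
    have h7 : 0 < c ^ k * x₀ := by positivity
    have h8 : c ^ k * x₀ * 1 ≤ c ^ k * x₀ * (4 * (r ^ k * (k * log c + log x₀))) := by
      nlinarith
    exact le_of_mul_le_mul_left h8 h7
  have t1 : Tendsto (fun k : ℕ => (k : ℝ) ^ 1 * r ^ k) atTop (𝓝 0) :=
    tendsto_pow_const_mul_const_pow_of_abs_lt_one 1 (by rw [abs_of_pos hr0]; exact hr1)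
  have t2 : Tendsto (fun k : ℕ => r ^ k) atTop (𝓝 0) :=
    tendsto_pow_atTop_nhds_zero_of_lt_one hr0.le hr1
  have t3 : Tendsto (fun k : ℕ => 4 * (r ^ k * (k * log c + log x₀))) atTop (𝓝 0) := by
    have := ((t1.mul_const (log c)).add (t2.mul_const (log x₀))).const_mul 4
    simp only [zero_mul, add_zero, mul_zero] at this
    refine this.congr (fun k => ?_)
    ring
  obtain ⟨k, hk⟩ := (t3.eventually (gt_mem_nhds (show (0 : ℝ) < 1 by norm_num))).exists
  exact absurd (h2 k) (not_le.2 hk)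

end Vale.Agent.Lib.P031
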