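import Mathlib
import Vale.Agent.Lib.P031.Freq

namespace Vale.Agent.Lib.P031

open Filter Topology Real

lemma limit_eq (c : ℝ) (hc : 1 < c) (L : ℝ) (h : Tendsto (R c) atTop (𝓝 L)) : L = c := by
  apply le_antisymm
  · by_contra hlt
    push Not at hlt
    have h1 : ∀ᶠ x in atTop, c + (L - c) / 2 < R c x := h.eventually (lt_mem_nhds (by linarith))
    have h2 := freq_lt c hc ((L - c) / 2) (by linarith)
    obtain ⟨x, hx1, hx2⟩ := (h2.and_eventually h1).exists
    linarith
  · by_contra hlt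
    push Not at hlt
    have h1 : ∀ᶠ x in atTop, R c x < c - (c - L) / 2 := h.eventually (gt_mem_nhds (by linarith))
    have h2 := freq_gt c hc ((c - L) / 2) (by linarith)
    obtain ⟨x, hx1, hx2⟩ := (h2.and_eventually h1).exists
    linarith

/-- `t` is good if `V(e^t x)/V(x) → e^t` -/
def Good (t : ℝ) : Prop := Tendsto (R (exp t)) atTop (𝓝 (exp t))

lemma good_zero : Good 0 := by
  rw [Good, exp_zero]
  apply tendsto_const_nhds.congr'
  filter_upwards [eventually_ge_atTop 1] with x hx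
  rw [R, one_mul, div_self (V_pos x hx).ne']

lemma good_add {s t : ℝ} (hs : Good s) (ht : Good t) : Good (s + t) := by
  rw [Good, exp_add]
  have h1 : Tendsto (fun x : ℝ => exp t * x) atTop atTop :=
    tendsto_id.const_mul_atTop (exp_pos t)
  have h2 : Tendsto (fun x : ℝ => R (exp s) (exp t * x) * R (exp t) x) atTop
      (𝓝 (exp s * exp t)) := (hs.comp h1).mul ht
  apply h2.congr'
  filter_upwards [h1.eventually (eventually_ge_atTop 1)] with x hx
  rw [R, R, R, div_mul_div_cancel₀ (V_pos _ hx).ne', mul_assoc]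

lemma good_neg {t : ℝ} (ht : Good t) : Good (-t) := by
  rw [Good, exp_neg]
  have h1 : Tendsto (fun x : ℝ => (exp t)⁻¹ * x) atTop atTop :=
    tendsto_id.const_mul_atTop (inv_pos.2 (exp_pos t))
  have h2 : Tendsto (fun x : ℝ => (R (exp t) ((exp t)⁻¹ * x))⁻¹) atTop (𝓝 (exp t)⁻¹) :=
    (ht.comp h1).inv₀ (exp_pos t).ne'
  apply h2.congr
  intro x
  rw [R, R, inv_div, ← mul_assoc, mul_inv_cancel₀ (exp_pos t).ne', one_mul]

/-- the subgroup of good exponents -/
def goodSubgroup : AddSubgroup ℝ where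
  carrier := {t | Good t}
  add_mem' := fun hs ht => good_add hs ht
  zero_mem' := good_zero
  neg_mem' := fun ht => good_neg ht

lemma R_mono {c c' : ℝ} (h : c ≤ c') (x : ℝ) (hx : 0 ≤ x) : R c x ≤ R c' x := by
  rw [R, R]
  apply div_le_div_of_nonneg_right _ (Nat.cast_nonneg _)
  exact_mod_cast V_mono (mul_le_mul_of_nonneg_right h hx)

lemma good_of_dense (hd : Dense (goodSubgroup : Set ℝ)) (t : ℝ) : Good t := by
  rw [Good]
  apply tendsto_order.2
  constructor
  · intro a ha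
    obtain ⟨s, hs1, hs2⟩ : ∃ s, s < t ∧ a ≤ exp s := by
      by_cases h0 : 0 < a
      · exact ⟨log a, (Real.log_lt_iff_lt_exp h0).2 ha, (Real.exp_log h0).ge⟩
      · exact ⟨t - 1, by linarith, le_trans (not_lt.1 h0) (exp_pos _).le⟩
    obtain ⟨t₁, ht₁, h1, h2⟩ := hd.exists_between hs1
    have h3 : a < exp t₁ := lt_of_le_of_lt hs2 (exp_lt_exp.2 h1)
    have h4 : ∀ᶠ x in atTop, a < R (exp t₁) x := (show Good t₁ from ht₁).eventually (lt_mem_nhds h3)
    filter_upwards [h4, eventually_ge_atTop 0] with x hx hx0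
    exact lt_of_lt_of_le hx (R_mono (exp_le_exp.2 h2.le) x hx0)
  · intro b hb
    have hb0 : 0 < b := lt_trans (exp_pos t) hb
    obtain ⟨t₁, ht₁, h1, h2⟩ := hd.exists_between ((Real.lt_log_iff_exp_lt hb0).2 hb)
    have h3 : exp t₁ < b := (Real.lt_log_iff_exp_lt hb0).1 h2
    have h4 : ∀ᶠ x in atTop, R (exp t₁) x < b := (show Good t₁ from ht₁).eventually (gt_mem_nhds h3)
    filter_upwards [h4, eventually_ge_atTop 0] with x hx hx0
    exact lt_of_le_of_lt (R_mono (exp_le_exp.2 h1.le) x hx0) hx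

theorem reduction (c₁ c₂ : ℝ) (h₁ : 1 < c₁) (h₂ : 1 < c₂) (hirr : Irrational (log c₁ / log c₂))
    (L₁ L₂ : ℝ) (hL₁ : Tendsto (R c₁) atTop (𝓝 L₁)) (hL₂ : Tendsto (R c₂) atTop (𝓝 L₂))
    (c : ℝ) (hc : 0 < c) : Tendsto (R c) atTop (𝓝 c) := by
  have g₁ : Good (log c₁) := by
    rw [Good, Real.exp_log (by linarith)]
    rwa [limit_eq c₁ h₁ L₁ hL₁] at hL₁
  have g₂ : Good (log c₂) := by
    rw [Good, Real.exp_log (by linarith)]
    rwa [limit_eq c₂ h₂ L₂ hL₂] at hL₂
  have hle : AddSubgroup.closure {log c₁, log c₂} ≤ goodSubgroup := by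
    rw [AddSubgroup.closure_le]
    intro t ht
    rcases ht with rfl | rfl
    · exact g₁
    · exact g₂
  have hd : Dense (goodSubgroup : Set ℝ) :=
    (dense_addSubgroupClosure_pair_iff.2 hirr).mono hle
  have := good_of_dense hd (log c)
  rwa [Good, Real.exp_log hc] at this

end Vale.Agent.Lib.P031
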